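import Mathlib
import Vale.Agent.P098.Six.S6.Root
import Vale.Agent.P098.Six.RootLit
import Vale.Agent.P098.Six.Assembly

/-!
# P098, six dimensions: the roots of a segment
-/

namespace Vale.Agent.P098.Six.S6

theorem lay_ok : layOK lay 1051582784 = true := by decide +kernel

theorem seg_pos : 0 < seg.K := by decide +kernel

theorem seg_ok : segOK seg (segN 6) = true := by decide +kernel

theorem root_ok0 : rootF lay 1051582784 seg.K (segN 6).box 448 (2 ^ 150)
    (((segN 6).rootsL).getD 0 ⟨[], 0⟩) (rootQ.getD 0 0) = true := by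
  decide +kernel

theorem root_ok1 : rootF lay 1051582784 seg.K (segN 6).box 448 (2 ^ 150)
    (((segN 6).rootsL).getD 1 ⟨[], 0⟩) (rootQ.getD 1 0) = true := by
  decide +kernel

theorem root_ok2 : rootF lay 1051582784 seg.K (segN 6).box 448 (2 ^ 150)
    (((segN 6).rootsL).getD 2 ⟨[], 0⟩) (rootQ.getD 2 0) = true := by
  decide +kernel

theorem root_ok3 : rootF lay 1051582784 seg.K (segN 6).box 448 (2 ^ 150)
    (((segN 6).rootsL).getD 3 ⟨[], 0⟩) (rootQ.getD 3 0) = true := by
  decide +kernel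

theorem root_ok4 : rootF lay 1051582784 seg.K (segN 6).box 448 (2 ^ 150)
    (((segN 6).rootsL).getD 4 ⟨[], 0⟩) (rootQ.getD 4 0) = true := by
  decide +kernel

theorem root_ok5 : rootF lay 1051582784 seg.K (segN 6).box 448 (2 ^ 150)
    (((segN 6).rootsL).getD 5 ⟨[], 0⟩) (rootQ.getD 5 0) = true := by
  decide +kernel

theorem root_ok6 : rootF lay 1051582784 seg.K (segN 6).box 448 (2 ^ 150)
    (((segN 6).rootsL).getD 6 ⟨[], 0⟩) (rootQ.getD 6 0) = true := by
  decide +kernel

theorem root_ok7 : rootF lay 1051582784 seg.K (segN 6).box 448 (2 ^ 150)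
    (((segN 6).rootsL).getD 7 ⟨[], 0⟩) (rootQ.getD 7 0) = true := by
  decide +kernel

theorem root_ok8 : rootF lay 1051582784 seg.K (segN 6).box 448 (2 ^ 150)
    (((segN 6).rootsL).getD 8 ⟨[], 0⟩) (rootQ.getD 8 0) = true := by
  decide +kernel

theorem root_ok9 : rootF lay 1051582784 seg.K (segN 6).box 448 (2 ^ 150)
    (((segN 6).rootsL).getD 9 ⟨[], 0⟩) (rootQ.getD 9 0) = true := by
  decide +kernel

theorem root_ok10 : rootF lay 1051582784 seg.K (segN 6).box 448 (2 ^ 150)
    (((segN 6).rootsL).getD 10 ⟨[], 0⟩) (rootQ.getD 10 0) = true := by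
  decide +kernel

theorem root_ok11 : rootF lay 1051582784 seg.K (segN 6).box 448 (2 ^ 150)
    (((segN 6).rootsL).getD 11 ⟨[], 0⟩) (rootQ.getD 11 0) = true := by
  decide +kernel

theorem root_ok12 : rootF lay 1051582784 seg.K (segN 6).box 448 (2 ^ 150)
    (((segN 6).rootsL).getD 12 ⟨[], 0⟩) (rootQ.getD 12 0) = true := by
  decide +kernel

theorem root_ok13 : rootF lay 1051582784 seg.K (segN 6).box 448 (2 ^ 150)
    (((segN 6).rootsL).getD 13 ⟨[], 0⟩) (rootQ.getD 13 0) = true := by
  decide +kernel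

theorem root_ok14 : rootF lay 1051582784 seg.K (segN 6).box 448 (2 ^ 150)
    (((segN 6).rootsL).getD 14 ⟨[], 0⟩) (rootQ.getD 14 0) = true := by
  decide +kernel

theorem root_ok15 : rootF lay 1051582784 seg.K (segN 6).box 448 (2 ^ 150)
    (((segN 6).rootsL).getD 15 ⟨[], 0⟩) (rootQ.getD 15 0) = true := by
  decide +kernel

theorem root_ok16 : rootF lay 1051582784 seg.K (segN 6).box 448 (2 ^ 150)
    (((segN 6).rootsL).getD 16 ⟨[], 0⟩) (rootQ.getD 16 0) = true := by
  decide +kernel

theorem root_ok17 : rootF lay 1051582784 seg.K (segN 6).box 448 (2 ^ 150)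
    (((segN 6).rootsL).getD 17 ⟨[], 0⟩) (rootQ.getD 17 0) = true := by
  decide +kernel

theorem root_ok18 : rootF lay 1051582784 seg.K (segN 6).box 448 (2 ^ 150)
    (((segN 6).rootsL).getD 18 ⟨[], 0⟩) (rootQ.getD 18 0) = true := by
  decide +kernel

theorem root_ok19 : rootF lay 1051582784 seg.K (segN 6).box 448 (2 ^ 150)
    (((segN 6).rootsL).getD 19 ⟨[], 0⟩) (rootQ.getD 19 0) = true := by
  decide +kernel

theorem roots_ok :
    rootsF lay 1051582784 seg.K (segN 6).box 448 (2 ^ 150) ((segN 6).rootsL) rootQ = true :=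
  rootsF_of 20 (by decide +kernel) (by decide +kernel) fun j hj =>
    match j, hj with
    | 0, _ => root_ok0
    | 1, _ => root_ok1
    | 2, _ => root_ok2
    | 3, _ => root_ok3
    | 4, _ => root_ok4
    | 5, _ => root_ok5
    | 6, _ => root_ok6
    | 7, _ => root_ok7
    | 8, _ => root_ok8
    | 9, _ => root_ok9
    | 10, _ => root_ok10
    | 11, _ => root_ok11
    | 12, _ => root_ok12
    | 13, _ => root_ok13
    | 14, _ => root_ok14
    | 15, _ => root_ok15
    | 16, _ => root_ok16
    | 17, _ => root_ok17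
    | 18, _ => root_ok18
    | 19, _ => root_ok19
    | n + 20, h => absurd h (by omega)

theorem packed : Packed lay 1051582784 root :=
  packed_of_reps (rootsF_reps (box_ok (segN 6)).1 (box_ok (segN 6)).2 roots_ok)

end Vale.Agent.P098.Six.S6
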